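import Vale.Agent.P027M.M.Spec

/-! # P027 route M, block ESC: the isomorphism of Eichler and Shimura in weight two (statements) -/

set_option autoImplicit false

open UpperHalfPlane
open scoped MatrixGroups Manifold ModularForm Real

noncomputable section

namespace Vale.Agent.P027M.ES

open Vale.Agent.P022.H218.L3 Vale.Agent.P027M.M

/-- cusp forms of weight two -/
def IsCF (Γ : Subgroup SL(2, ℤ)) (f : ℍ → ℂ) : Prop :=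
  IsMF Γ 2 f ∧ ∀ γ : SL(2, ℤ), IsZeroAtImInfty (f ∣[(2 : ℤ)] γ)

/-- `F` is a primitive of `2 π i f` -/
def Prim (f F : ℍ → ℂ) : Prop :=
  ∀ τ : ℍ, HasDerivAt (F ∘ ofComplex) (2 * π * Complex.I * f τ) (τ : ℂ)

/-- additive on `Γ` (the same as `TW.AddOn`) -/
def AddOn (Γ : Subgroup SL(2, ℤ)) (φ : SL(2, ℤ) → ℂ) : Prop :=
  ∀ γ ∈ Γ, ∀ γ' ∈ Γ, φ (γ * γ') = φ γ + φ γ'

/-- the period of the pair of primitives `F`, `conj G` -/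
def per (F G : ℍ → ℂ) (γ : SL(2, ℤ)) (τ : ℍ) : ℂ :=
  F (γ • τ) - F τ + (starRingEnd ℂ) (G (γ • τ) - G τ)

/-- **onto** -/
def ONTO : Prop := ∀ (N : ℕ) (Γ : Subgroup SL(2, ℤ)), Mid N Γ → ∀ φ : SL(2, ℤ) → ℂ, AddOn Γ φ →
  ∃ f g F G : ℍ → ℂ, IsMF Γ 2 f ∧ IsCF Γ g ∧ Prim f F ∧ Prim g G ∧
    ∀ γ ∈ Γ, ∀ τ, φ γ = per F G γ τ

/-- **injective** -/
def INJ : Prop := ∀ (Γ : Subgroup SL(2, ℤ)) [Γ.FiniteIndex] (f g F G : ℍ → ℂ),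
  IsMF Γ 2 f → IsCF Γ g → Prim f F → Prim g G → (∀ γ ∈ Γ, ∀ τ, per F G γ τ = 0) →
    f = 0 ∧ g = 0

/-- **the output of the block** -/
def ESC : Prop := ONTO ∧ INJ

/-! ### rows -/

/-- primitives exist -/
def PRIM : Prop := ∀ f ∈ Hol, ∃ F, Prim f F

/-- maximum principle -/
def MAXP : Prop := ∀ (Γ : Subgroup SL(2, ℤ)) [Γ.FiniteIndex] (K : ℍ → ℂ) (n : ℕ), 0 < n → K ∈ Hol →
  (∀ γ ∈ Γ, ∀ τ, ‖K (γ • τ)‖ = ‖K τ‖) →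
  (∀ γ : SL(2, ℤ), IsBoundedAtImInfty (fun τ => K (γ • τ)) ∧
    ∀ τ, K (γ • (ModularGroup.T ^ n • τ)) = K (γ • τ)) → ∃ c, ∀ τ, K τ = c

/-- primitives at the cusp -/
def CUSP : Prop := ∀ (f F : ℍ → ℂ) (n : ℕ), 0 < n → f ∈ Hol → IsBoundedAtImInfty f →
  (∀ τ, f (ModularGroup.T ^ n • τ) = f τ) → Prim f F →
  (IsZeroAtImInfty f → ∀ τ, F (ModularGroup.T ^ n • τ) = F τ) ∧
  ((∀ τ, F (ModularGroup.T ^ n • τ) = F τ) → IsBoundedAtImInfty F ∧ IsZeroAtImInfty f)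

/-- the matrix `(1 0; 4 1)` -/
def U4 : SL(2, ℤ) := ⟨!![1, 0; 4, 1], by simp [Matrix.det_fin_two]⟩

/-- generators of `Γ₀(4)` -/
def GEN : Prop := Subgroup.closure {-1, ModularGroup.T, U4} = G0

/-- the upper bound for the dimension of the space of homomorphisms -/
def HOMD : Prop := ∀ (Γ : Subgroup SL(2, ℤ)) [Γ.FiniteIndex], Γ ≤ G0 → -1 ∈ Γ →
  ∀ (ι : Type) [Fintype ι] (φ : ι → SL(2, ℤ) → ℂ), (∀ i, AddOn Γ (φ i)) →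
    LinearIndependent ℂ (fun (i : ι) (γ : Γ) => φ i γ) → Fintype.card ι ≤ Γ.relIndex G0 + 1

/-- the lower bound for the dimension of the spaces of forms -/
def DIMS : Prop := ∀ (N : ℕ) (Γ : Subgroup SL(2, ℤ)), Mid N Γ →
  ∃ (a b : ℕ) (f : Fin a → ℍ → ℂ) (g : Fin b → ℍ → ℂ), (∀ i, IsMF Γ 2 (f i)) ∧
    (∀ j, IsMF Γ 2 (g j) ∧ ∀ c : SL(2, ℤ), IsZeroAtImInfty (g j ∣[(2 : ℤ)] c)) ∧
    LinearIndependent ℂ f ∧ LinearIndependent ℂ g ∧ Γ.relIndex G0 + 1 ≤ a + b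

def Spec_HOMD : Prop := GEN → HOMD
def Spec_INJ : Prop := MAXP → CUSP → INJ
def Spec_ONTO : Prop := GRP → PRIM → INJ → HOMD → DIMS → ONTO

end Vale.Agent.P027M.ES
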