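import Vale.Agent.P027M.ES.Defs

/-! # P027 route M, block ESC: generators of `Γ₀(4)` -/

set_option autoImplicit false

open scoped MatrixGroups

namespace Vale.Agent.P027M.ES.Gen

theorem mul_ent (g γ : SL(2, ℤ)) (i j : Fin 2) :
    (g * γ) i j = g i 0 * γ 0 j + g i 1 * γ 1 j := by
  simp [Matrix.SpecialLinearGroup.coe_mul, Matrix.mul_apply, Fin.sum_univ_two]

theorem det_ent (γ : SL(2, ℤ)) : γ 0 0 * γ 1 1 - γ 0 1 * γ 1 0 = 1 := by
  have := γ.det_coe
  rwa [Matrix.det_fin_two] at this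

theorem upper (H : Subgroup SL(2, ℤ)) (h1 : -1 ∈ H) (hT : ModularGroup.T ∈ H) (γ : SL(2, ℤ))
    (hc : γ 1 0 = 0) : γ ∈ H := by
  have hd := det_ent γ
  rw [hc, mul_zero, sub_zero] at hd
  rcases Int.eq_one_or_neg_one_of_mul_eq_one' hd with ⟨ha, hd'⟩ | ⟨ha, hd'⟩
  · have : γ = ModularGroup.T ^ (γ 0 1) := by
      ext i j
      rw [ModularGroup.coe_T_zpow]
      fin_cases i <;> fin_cases j <;> simp [ha, hd', hc]
    rw [this]
    exact H.zpow_mem hT _
  · have : γ = -1 * ModularGroup.T ^ (-γ 0 1) := by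
      ext i j
      rw [neg_one_mul, Matrix.SpecialLinearGroup.coe_neg, ModularGroup.coe_T_zpow]
      fin_cases i <;> fin_cases j <;> simp [ha, hd', hc]
    rw [this]
    exact H.mul_mem h1 (H.zpow_mem hT _)

theorem core (H : Subgroup SL(2, ℤ)) (h1 : -1 ∈ H) (hT : ModularGroup.T ∈ H) (U : SL(2, ℤ))
    (u00 : U 0 0 = 1) (u01 : U 0 1 = 0) (u10 : U 1 0 = 4) (u11 : U 1 1 = 1) (hU : U ∈ H) :
    ∀ (n : ℕ) (γ : SL(2, ℤ)), (4 : ℤ) ∣ γ 1 0 → (γ 1 0).natAbs + (γ 0 0).natAbs < n → γ ∈ H := by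
  have t00 : ModularGroup.T 0 0 = 1 := rfl
  have t01 : ModularGroup.T 0 1 = 1 := rfl
  have t10 : ModularGroup.T 1 0 = 0 := rfl
  have t11 : ModularGroup.T 1 1 = 1 := rfl
  intro n
  induction n with
  | zero => intro γ _ h; omega
  | succ n ih =>
    intro γ h4 hn
    by_cases hc : γ 1 0 = 0
    · exact upper H h1 hT γ hc
    have hodd : γ 0 0 % 2 = 1 := by
      have hd := det_ent γ
      obtain ⟨c, hc'⟩ := h4
      rcases Int.emod_two_eq_zero_or_one (γ 0 0) with h | h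
      · exfalso
        obtain ⟨a, ha⟩ := Int.dvd_of_emod_eq_zero h
        rw [ha, hc'] at hd
        have : 2 * (a * γ 1 1 - 2 * (γ 0 1 * c)) = 1 := by linear_combination hd
        omega
      · exact h
    have step : ∀ g ∈ H, (4 : ℤ) ∣ (g * γ) 1 0 →
        ((g * γ) 1 0).natAbs + ((g * γ) 0 0).natAbs < n → γ ∈ H := by
      intro g hg h4' hn'
      have := H.mul_mem (H.inv_mem hg) (ih _ h4' hn')
      rwa [inv_mul_cancel_left] at this
    have step' : ∀ g ∈ H, ∀ δ, γ = g * δ → (4 : ℤ) ∣ δ 1 0 →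
        (δ 1 0).natAbs + (δ 0 0).natAbs < n → γ ∈ H := by
      intro g hg δ e h4' hn'
      rw [e]
      exact H.mul_mem hg (ih _ h4' hn')
    have eT0 := mul_ent ModularGroup.T γ 0 0
    have eT1 := mul_ent ModularGroup.T γ 1 0
    have eU0 := mul_ent U γ 0 0
    have eU1 := mul_ent U γ 1 0
    have fT0 := mul_ent ModularGroup.T (ModularGroup.T⁻¹ * γ) 0 0
    have fT1 := mul_ent ModularGroup.T (ModularGroup.T⁻¹ * γ) 1 0
    have fU0 := mul_ent U (U⁻¹ * γ) 0 0
    have fU1 := mul_ent U (U⁻¹ * γ) 1 0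
    rw [mul_inv_cancel_left] at fT0 fT1 fU0 fU1
    rw [t00, t01] at eT0 fT0
    rw [t10, t11] at eT1 fT1
    rw [u00, u01] at eU0 fU0
    rw [u10, u11] at eU1 fU1
    by_cases c1 : ((ModularGroup.T * γ) 0 0).natAbs < (γ 0 0).natAbs
    · exact step _ hT (by omega) (by omega)
    by_cases c2 : ((ModularGroup.T⁻¹ * γ) 0 0).natAbs < (γ 0 0).natAbs
    · exact step _ (H.inv_mem hT) (by omega) (by omega)
    by_cases c3 : ((U * γ) 1 0).natAbs < (γ 1 0).natAbs
    · exact step _ hU (by omega) (by omega)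
    exact step _ (H.inv_mem hU) (by omega) (by omega)

end Vale.Agent.P027M.ES.Gen

namespace Vale.Agent.P027M.ES

theorem gen : GEN := by
  unfold GEN
  apply le_antisymm
  · rw [Subgroup.closure_le]
    intro γ hγ
    rw [SetLike.mem_coe, CongruenceSubgroup.Gamma0_mem]
    rcases hγ with rfl | rfl | rfl
    · simp
    · have t10 : ModularGroup.T 1 0 = 0 := rfl
      rw [t10]; simp
    · have u10 : U4 1 0 = 4 := rfl
      rw [u10]; rfl
  · intro γ hγ
    rw [CongruenceSubgroup.Gamma0_mem] at hγ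
    have h4 : (4 : ℤ) ∣ γ 1 0 := by
      have := (ZMod.intCast_zmod_eq_zero_iff_dvd (γ 1 0) 4).1 hγ
      exact_mod_cast this
    exact Gen.core _ (Subgroup.subset_closure (by simp)) (Subgroup.subset_closure (by simp)) U4
      rfl rfl rfl rfl (Subgroup.subset_closure (by simp)) _ γ h4 (Nat.lt_succ_self _)

end Vale.Agent.P027M.ES
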