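import Vale.Agent.P027M.ES.Defs

/-! # P027 route M, block ESC: the dimension of the space of homomorphisms -/

set_option autoImplicit false

open scoped MatrixGroups

noncomputable section

namespace Vale.Agent.P027M.ES.Homd

variable {G : Type} [Group G] (Γ : Subgroup G) {ι : Type} [Fintype ι]

/-- the function on the group attached to coefficients `c` and a function `b` on the cosets -/
def W (φ : ι → G → ℂ) : ((ι → ℂ) × (G ⧸ Γ → ℂ)) →ₗ[ℂ] (G → ℂ) where
  toFun p g := p.2 (g : G ⧸ Γ) + ∑ i, p.1 i * φ i (((g : G ⧸ Γ).out)⁻¹ * g)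
  map_add' p q := by
    funext g
    simp only [Prod.snd_add, Prod.fst_add, Pi.add_apply, add_mul, Finset.sum_add_distrib]
    ring
  map_smul' a p := by
    funext g
    simp only [Prod.smul_snd, Prod.smul_fst, Pi.smul_apply, smul_eq_mul, RingHom.id_apply, mul_add,
      Finset.mul_sum, mul_assoc]

/-- the two differences on the cosets and the value at `1` -/
def E (t u : G) : (G → ℂ) →ₗ[ℂ] ((G ⧸ Γ → ℂ) × (G ⧸ Γ → ℂ) × ℂ) where
  toFun w := (fun x => w (t * x.out) - w x.out, fun x => w (u * x.out) - w x.out, w 1)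
  map_add' p q := by
    ext x
    · simp only [Pi.add_apply, Prod.fst_add]; ring
    · simp only [Pi.add_apply, Prod.fst_add, Prod.snd_add]; ring
    · simp only [Pi.add_apply, Prod.snd_add]
  map_smul' a p := by
    ext x
    · simp only [Pi.smul_apply, smul_eq_mul, RingHom.id_apply, Prod.smul_fst]; ring
    · simp only [Pi.smul_apply, smul_eq_mul, RingHom.id_apply, Prod.smul_fst, Prod.smul_snd]; ring
    · simp only [Pi.smul_apply, smul_eq_mul, RingHom.id_apply, Prod.smul_snd]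

theorem out_mem (g : G) : ((g : G ⧸ Γ).out)⁻¹ * g ∈ Γ := by
  rw [← QuotientGroup.eq, QuotientGroup.out_eq']

theorem W_mul (φ : ι → G → ℂ) (hφ : ∀ i, ∀ γ ∈ Γ, ∀ γ' ∈ Γ, φ i (γ * γ') = φ i γ + φ i γ')
    (p : (ι → ℂ) × (G ⧸ Γ → ℂ)) (g γ : G) (hγ : γ ∈ Γ) :
    W Γ φ p (g * γ) = W Γ φ p g + ∑ i, p.1 i * φ i γ := by
  have e : ((g * γ : G) : G ⧸ Γ) = (g : G ⧸ Γ) := QuotientGroup.mk_mul_of_mem g hγ
  show p.2 _ + ∑ i, p.1 i * φ i _ = p.2 _ + ∑ i, p.1 i * φ i _ + _
  rw [e, add_assoc, ← Finset.sum_add_distrib]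
  congr 1
  refine Finset.sum_congr rfl fun i _ => ?_
  rw [← mul_assoc, hφ i _ (out_mem Γ g) _ hγ, mul_add]

theorem core [Γ.FiniteIndex] (m t u : G)
    (hgen : ∀ H : Subgroup G, m ∈ H → t ∈ H → u ∈ H → H = ⊤)
    (hm : m ∈ Γ) (hc : ∀ g, m * g = g * m) (hmm : m * m = 1)
    (φ : ι → G → ℂ) (hφ : ∀ i, ∀ γ ∈ Γ, ∀ γ' ∈ Γ, φ i (γ * γ') = φ i γ + φ i γ')
    (hli : ∀ c : ι → ℂ, (∀ γ ∈ Γ, ∑ i, c i * φ i γ = 0) → c = 0) :
    Fintype.card ι ≤ Γ.index + 1 := by
  classical
  have : Fintype (G ⧸ Γ) := Fintype.ofFinite _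
  have h1 : ∀ i, φ i 1 = 0 := fun i => by
    have := hφ i 1 Γ.one_mem 1 Γ.one_mem
    rw [one_mul] at this
    linear_combination -this
  have hm0 : ∀ i, φ i m = 0 := fun i => by
    have := hφ i m hm m hm
    rw [hmm, h1] at this
    linear_combination (-1 / 2 : ℂ) * this
  have inj : Function.Injective ((E Γ t u).comp (W Γ φ)) := by
    rw [injective_iff_map_eq_zero]
    intro p hp
    set w := W Γ φ p with hw
    have hp' : E Γ t u w = 0 := hp
    have hmul := W_mul Γ φ hφ p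
    rw [← hw] at hmul
    have ext : ∀ h : G, (∀ x : G ⧸ Γ, w (h * x.out) - w x.out = 0) → ∀ g, w (h * g) = w g := by
      intro h hh g
      have e : g = (g : G ⧸ Γ).out * (((g : G ⧸ Γ).out)⁻¹ * g) := by
        rw [mul_inv_cancel_left]
      have a1 := hmul (h * (g : G ⧸ Γ).out) _ (out_mem Γ g)
      have a2 := hmul ((g : G ⧸ Γ).out) _ (out_mem Γ g)
      rw [mul_assoc, ← e] at a1
      rw [← e] at a2
      linear_combination a1 - a2 + hh g
    let H : Subgroup G :=
      { carrier := {h | ∀ g, w (h * g) = w g}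
        mul_mem' := fun {a b} ha hb g => by rw [mul_assoc, ha, hb]
        one_mem' := fun g => by rw [one_mul]
        inv_mem' := fun {a} ha g => by rw [← ha (a⁻¹ * g), mul_inv_cancel_left] }
    have hH : H = ⊤ := by
      refine hgen H (fun g => ?_) (ext t fun x => ?_) (ext u fun x => ?_)
      · rw [hc, hmul g m hm]
        simp [hm0]
      · exact congrFun (congrArg Prod.fst hp') x
      · exact congrFun (congrArg (fun z => z.2.1) hp') x
    have hw1 : w 1 = 0 := congrArg (fun z => z.2.2) hp'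
    have hw0 : ∀ g, w g = 0 := fun g => by
      have hg : g ∈ H := hH ▸ Subgroup.mem_top g
      have := hg 1
      rwa [mul_one, hw1] at this
    have hc0 : p.1 = 0 := hli _ fun γ hγ => by
      have := hmul 1 γ hγ
      rw [hw0, hw0] at this
      linear_combination -this
    have hb0 : p.2 = 0 := by
      funext x
      have : p.2 ((x.out : G) : G ⧸ Γ) + ∑ i, p.1 i * φ i _ = 0 := hw0 x.out
      rw [hc0, QuotientGroup.out_eq'] at this
      simpa using this
    exact Prod.ext hc0 hb0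
  have := LinearMap.finrank_le_finrank_of_injective inj
  simp only [Module.finrank_prod, Module.finrank_fintype_fun_eq_card, Module.finrank_self] at this
  rw [Subgroup.index_eq_card, Nat.card_eq_fintype_card]
  omega

end Vale.Agent.P027M.ES.Homd

namespace Vale.Agent.P027M.ES

open Vale.Agent.P027M.M

theorem homd : Spec_HOMD := by
  intro hgen Γ _ hle hm ι _ φ hφ hli
  have hcl : ∀ g ∈ ({-1, ModularGroup.T, U4} : Set SL(2, ℤ)), g ∈ G0 := fun g hg => by
    rw [← hgen]
    exact Subgroup.subset_closure hg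
  have m0 : (-1 : SL(2, ℤ)) ∈ G0 := hcl _ (by simp)
  have t0 : ModularGroup.T ∈ G0 := hcl _ (by simp)
  have u0 : U4 ∈ G0 := hcl _ (by simp)
  refine Homd.core (G := G0) (Γ.subgroupOf G0) ⟨-1, m0⟩ ⟨ModularGroup.T, t0⟩ ⟨U4, u0⟩ ?_ hm ?_ ?_
    (fun i g => φ i g) (fun i γ hγ γ' hγ' => hφ i _ hγ _ hγ') ?_
  · intro H a1 a2 a3
    rw [eq_top_iff]
    intro g _
    have hsub : G0 ≤ H.map G0.subtype := by
      conv_lhs => rw [← hgen]
      rw [Subgroup.closure_le]
      rintro x (rfl | rfl | rfl)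
      · exact ⟨_, a1, rfl⟩
      · exact ⟨_, a2, rfl⟩
      · exact ⟨_, a3, rfl⟩
    obtain ⟨y, hy, e⟩ := hsub g.2
    have : y = g := Subtype.ext e
    exact this ▸ hy
  · intro g
    apply Subtype.ext
    show -1 * (g : SL(2, ℤ)) = g * -1
    simp
  · apply Subtype.ext
    show -1 * (-1 : SL(2, ℤ)) = 1
    simp
  · intro c hc
    funext i
    refine Fintype.linearIndependent_iff.1 hli c ?_ i
    funext γ
    have := hc ⟨γ, hle γ.2⟩ γ.2
    simpa [Finset.sum_apply] using this

end Vale.Agent.P027M.ES
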