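import Vale.Agent.P027M.ES.ToFo
import Vale.Agent.P027M.ES.Gen
import Vale.Agent.P027M.ES.Homd
import Vale.Agent.P027M.M.DimsAll

/-! # P027 route M, block ESC without hypotheses -/

namespace Vale.Agent.P027M.ES

theorem esc : ESC := esc_of M.grp (homd gen) M.dims_all

theorem escf : Fo.ESCf := escf_of M.grp esc

end Vale.Agent.P027M.ES
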