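import Vale.Agent.P027M.ES.Defs

/-! # P027 route M, row ES.CUSP : primitives at the cusp -/

set_option autoImplicit false
set_option linter.all false

open UpperHalfPlane Filter Topology
open scoped MatrixGroups Manifold ModularForm Real

noncomputable section

namespace Vale.Agent.P027M.ES

open Vale.Agent.P022.H218.L3 Vale.Agent.P027M.M

namespace Cusp

theorem coe_T (n : ℕ) (τ : ℍ) : ((ModularGroup.T ^ n • τ : ℍ) : ℂ) = τ + n := by
  have := ModularGroup.coe_T_zpow_smul_eq τ (n := (n : ℤ))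
  rwa [zpow_natCast, Int.cast_natCast] at this

theorem periodic {f : ℍ → ℂ} {n : ℕ} (h : ∀ τ, f (ModularGroup.T ^ n • τ) = f τ) :
    Function.Periodic (f ∘ ofComplex) ((n : ℝ) : ℂ) := by
  intro w
  by_cases hw : 0 < w.im
  · have h1 : 0 < (w + ((n : ℝ) : ℂ)).im := by simpa using hw
    simp only [Function.comp_apply, ofComplex_apply_of_im_pos h1, ofComplex_apply_of_im_pos hw]
    rw [← h ⟨w, hw⟩]
    congr 1
    ext
    rw [coe_T]
    simp
  · have hw' : w.im ≤ 0 := not_lt.1 hw
    have h1 : (w + ((n : ℝ) : ℂ)).im ≤ 0 := by simpa using hw'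
    simp only [Function.comp_apply, ofComplex_apply_of_im_nonpos h1,
      ofComplex_apply_of_im_nonpos hw']

theorem q_T {n : ℕ} (hn : 0 < n) (τ : ℍ) :
    Function.Periodic.qParam n ((ModularGroup.T ^ n • τ : ℍ) : ℂ) =
      Function.Periodic.qParam n (τ : ℂ) := by
  have h0 : (n : ℂ) ≠ 0 := Nat.cast_ne_zero.2 hn.ne'
  rw [coe_T, Function.Periodic.qParam, Function.Periodic.qParam]
  have : 2 * π * Complex.I * ((τ : ℂ) + n) / ((n : ℝ) : ℂ) =
      2 * π * Complex.I * (τ : ℂ) / ((n : ℝ) : ℂ) + 2 * π * Complex.I := by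
    push_cast
    field_simp
  rw [this, Complex.exp_add, Complex.exp_two_pi_mul_I, mul_one]

/-- the shape of a primitive -/
theorem shape {f F : ℍ → ℂ} {n : ℕ} (hn : 0 < n) (hf : f ∈ Hol) (hb : IsBoundedAtImInfty f)
    (hp : ∀ τ, f (ModularGroup.T ^ n • τ) = f τ) (hF : Prim f F) :
    ∃ (a c : ℂ) (H : ℂ → ℂ), ContinuousAt H 0 ∧ Tendsto f atImInfty (𝓝 a) ∧
      ∀ τ : ℍ, F τ = 2 * π * Complex.I * a * τ + n * H (Function.Periodic.qParam n τ) + c := by
  have hn' : (0 : ℝ) < n := Nat.cast_pos.2 hn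
  have h0 : (n : ℂ) ≠ 0 := Nat.cast_ne_zero.2 hn.ne'
  have hper := periodic hp
  set k := cuspFunction (n : ℝ) f with hk
  have hkd : DifferentiableOn ℂ k (Metric.ball 0 1) :=
    differentiableOn_cuspFunction_ball hn' hper hf hb
  have hball : Metric.ball (0 : ℂ) 1 ∈ 𝓝 (0 : ℂ) := Metric.ball_mem_nhds _ one_pos
  obtain ⟨H, hH⟩ := ((Complex.differentiableOn_dslope hball).2 hkd).isExactOn_ball
  have hkq : ∀ τ : ℍ, k (Function.Periodic.qParam n τ) = f τ := fun τ =>
    eq_cuspFunction τ hn'.ne' hper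
  have hder : ∀ z : ℂ, 0 < z.im → HasDerivAt (fun z => (F ∘ ofComplex) z -
      2 * π * Complex.I * k 0 * z - n * H (Function.Periodic.qParam n z)) 0 z := by
    intro z hz
    set q := Function.Periodic.qParam n z with hq
    have h1 : HasDerivAt (Function.Periodic.qParam n) (q * (2 * π * Complex.I / (n : ℝ))) z := by
      simpa only [id_eq, mul_one] using! (((hasDerivAt_id z).const_mul _).div_const _).cexp
    have h2 := (hH q (mem_ball_zero_iff.2 (Function.Periodic.norm_qParam_lt_one hn' hz))).comp z h1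
    have h3 := ((hF ⟨z, hz⟩).sub ((hasDerivAt_id z).const_mul (2 * π * Complex.I * k 0))).sub
      (h2.const_mul (n : ℂ))
    have h4 : q * dslope k 0 q = k q - k 0 := by simpa using sub_smul_dslope k 0 q
    have h5 : k q = f ⟨z, hz⟩ := hkq ⟨z, hz⟩
    refine h3.congr_deriv ?_
    rw [← h5]
    push_cast
    field_simp
    linear_combination -(2 * π * Complex.I) * h4
  obtain ⟨c, hc⟩ := isOpen_upperHalfPlaneSet.exists_is_const_of_deriv_eq_zero
    (convex_halfSpace_im_gt 0).isPreconnected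
    (fun z hz => (hder z hz).differentiableAt.differentiableWithinAt) fun z hz => (hder z hz).deriv
  refine ⟨k 0, c, H, (hH 0 (Metric.mem_ball_self one_pos)).continuousAt, ?_, fun τ => ?_⟩
  · have := (hkd.differentiableAt hball).continuousAt.tendsto.comp (qParam_tendsto_atImInfty hn')
    exact this.congr hkq
  · have := hc τ τ.2
    simp only [Function.comp_apply, ofComplex_apply] at this
    linear_combination this

end Cusp

theorem cusp : CUSP := by
  intro f F n hn hf hb hp hF
  obtain ⟨a, c, H, hH, ha, hs⟩ := Cusp.shape hn hf hb hp hF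
  have h0 : (n : ℂ) ≠ 0 := Nat.cast_ne_zero.2 hn.ne'
  refine ⟨fun hz τ => ?_, fun h => ?_⟩
  · have : a = 0 := tendsto_nhds_unique ha hz
    rw [hs, hs, Cusp.q_T hn, this]
    simp
  · have h1 := h UpperHalfPlane.I
    rw [hs, hs, Cusp.q_T hn, Cusp.coe_T] at h1
    have h2 : 2 * π * Complex.I * a * n = 0 := by linear_combination h1
    have h3 : a = 0 :=
      (mul_eq_zero.1 ((mul_eq_zero.1 h2).resolve_right h0)).resolve_left Complex.two_pi_I_ne_zero
    subst h3
    refine ⟨?_, ha⟩
    have h4 := ((hH.tendsto.comp (qParam_tendsto_atImInfty (Nat.cast_pos.2 hn))).const_mul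
      (n : ℂ)).add_const c
    have h5 : Tendsto F atImInfty (𝓝 (n * H 0 + c)) := h4.congr fun τ => by simp [hs]
    exact h5.isBigO_one ℝ

end Vale.Agent.P027M.ES
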