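import Vale.Agent.P027M.ES.Prim

/-! # P027 route M, block ESC: the period map is injective -/

set_option autoImplicit false

open UpperHalfPlane Filter Topology
open scoped MatrixGroups Manifold ModularForm Real

noncomputable section

namespace Vale.Agent.P027M.ES

open Vale.Agent.P022.H218.L3 Vale.Agent.P027M.M

namespace Inj

theorem exists_width (Γ : Subgroup SL(2, ℤ)) [Γ.FiniteIndex] :
    ∃ n : ℕ, 0 < n ∧ ∀ γ : SL(2, ℤ), γ * ModularGroup.T ^ n * γ⁻¹ ∈ Γ := by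
  refine ⟨Γ.normalCore.index, Nat.pos_of_ne_zero Subgroup.FiniteIndex.index_ne_zero, fun γ => ?_⟩
  exact Γ.normalCore_le
    (Γ.normalCore_normal.conj_mem _ (Subgroup.pow_index_mem Γ.normalCore ModularGroup.T) γ)

theorem slash_T (n : ℕ) (f : ℍ → ℂ) (τ : ℍ) :
    (f ∣[(2 : ℤ)] (ModularGroup.T ^ n : SL(2, ℤ))) τ = f (ModularGroup.T ^ n • τ) := by
  rw [ModularForm.SL_slash_apply]
  have h := ModularGroup.coe_T_zpow (n : ℤ)
  rw [zpow_natCast] at h
  have : denom (ModularGroup.T ^ n : SL(2, ℤ)) τ = 1 := by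
    rw [ModularGroup.denom_apply, h]
    simp
  rw [this]
  simp

theorem periodic {Γ : Subgroup SL(2, ℤ)} {f : ℍ → ℂ} (hf : IsMF Γ 2 f) {n : ℕ} {γ : SL(2, ℤ)}
    (h : γ * ModularGroup.T ^ n * γ⁻¹ ∈ Γ) (τ : ℍ) :
    (f ∣[(2 : ℤ)] γ) (ModularGroup.T ^ n • τ) = (f ∣[(2 : ℤ)] γ) τ := by
  rw [← slash_T n (f ∣[(2 : ℤ)] γ), ← SlashAction.slash_mul,
    show γ * ModularGroup.T ^ n = (γ * ModularGroup.T ^ n * γ⁻¹) * γ by group,
    SlashAction.slash_mul, hf.slash _ h]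

/-- a primitive with invariant real part and bounded periodic translates is constant -/
theorem key (hM : MAXP) (Γ : Subgroup SL(2, ℤ)) [Γ.FiniteIndex] {n : ℕ} (hn : 0 < n)
    {f F : ℍ → ℂ} (h : Prim f F) (h1 : ∀ γ ∈ Γ, ∀ τ, (F (γ • τ)).re = (F τ).re)
    (h2 : ∀ γ : SL(2, ℤ), IsBoundedAtImInfty (fun τ => F (γ • τ)) ∧
      ∀ τ, F (γ • (ModularGroup.T ^ n • τ)) = F (γ • τ)) : f = 0 := by
  have hK : Prim (fun τ => Complex.exp (F τ) * f τ) (fun τ => Complex.exp (F τ)) := fun τ => by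
    have h3 := (h τ).cexp
    rw [Function.comp_apply, ofComplex_apply, mul_left_comm] at h3
    exact h3
  obtain ⟨c, hc⟩ := hM Γ (fun τ => Complex.exp (F τ)) n hn hK.hol
    (fun γ hγ τ => by rw [Complex.norm_exp, Complex.norm_exp, h1 γ hγ τ])
    (fun γ => ⟨by
      obtain ⟨M, A, hMA⟩ := isBoundedAtImInfty_iff.1 (h2 γ).1
      refine isBoundedAtImInfty_iff.2 ⟨Real.exp M, A, fun z hz => ?_⟩
      rw [Complex.norm_exp]
      exact Real.exp_le_exp.2 ((Complex.re_le_norm _).trans (hMA z hz)),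
      fun τ => by rw [(h2 γ).2 τ]⟩)
  funext τ
  exact (mul_eq_zero.1 (congrFun (hK.eq_zero hc) τ)).resolve_left (Complex.exp_ne_zero _)

end Inj

open Inj

/-- the primitive of a cusp form at a cusp -/
theorem cusp_prim (hC : CUSP) {Γ : Subgroup SL(2, ℤ)} {g G : ℍ → ℂ} (hg : IsCF Γ g)
    (hG : Prim g G) {n : ℕ} (hn : 0 < n) {γ : SL(2, ℤ)} (h : γ * ModularGroup.T ^ n * γ⁻¹ ∈ Γ) :
    IsBoundedAtImInfty (fun τ => G (γ • τ)) ∧
      ∀ τ, G (γ • (ModularGroup.T ^ n • τ)) = G (γ • τ) := by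
  obtain ⟨h1, h2⟩ := hC _ _ n hn (slash_mem hg.1.hol 2 γ) (hg.1.bdd γ) (periodic hg.1 h)
    (hG.compSL γ)
  exact ⟨(h2 (h1 (hg.2 γ))).1, h1 (hg.2 γ)⟩

/-- a form whose parabolic periods vanish is a cusp form -/
theorem cusp_of_par (hC : CUSP) {Γ : Subgroup SL(2, ℤ)} {f F : ℍ → ℂ} (hf : IsMF Γ 2 f)
    (hF : Prim f F) {n : ℕ} (hn : 0 < n) {γ : SL(2, ℤ)} (h : γ * ModularGroup.T ^ n * γ⁻¹ ∈ Γ)
    (hp : ∀ τ, F ((γ * ModularGroup.T ^ n * γ⁻¹) • τ) = F τ) :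
    (IsBoundedAtImInfty (fun τ => F (γ • τ)) ∧
      ∀ τ, F (γ • (ModularGroup.T ^ n • τ)) = F (γ • τ)) ∧
      IsZeroAtImInfty (f ∣[(2 : ℤ)] γ) := by
  have h0 : ∀ τ, F (γ • (ModularGroup.T ^ n • τ)) = F (γ • τ) := fun τ => by
    have := hp (γ • τ)
    rwa [mul_smul, mul_smul, inv_smul_smul] at this
  obtain ⟨-, h2⟩ := hC _ _ n hn (slash_mem hf.hol 2 γ) (hf.bdd γ) (periodic hf h) (hF.compSL γ)
  exact ⟨⟨(h2 h0).1, h0⟩, (h2 h0).2⟩

theorem inj : Spec_INJ := by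
  intro hM hC Γ _ f g F G hf hg hF hG h0
  obtain ⟨n, hn, hw⟩ := exists_width Γ
  have hG1 := fun γ => cusp_prim hC hg hG hn (hw γ)
  have hF1 := fun γ => (cusp_of_par hC hf hF hn (hw γ) fun τ => by
    have h1 := h0 _ (hw γ) τ
    have h2 := (hG1 γ).2 (γ⁻¹ • τ)
    rw [smul_inv_smul, ← mul_smul, ← mul_smul] at h2
    rw [per, h2, sub_self, map_zero, add_zero] at h1
    exact sub_eq_zero.1 h1).1
  have e1 : f + g = 0 := key hM Γ hn (hF.add hG)
    (fun γ hγ τ => by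
      have h1 := congrArg Complex.re (h0 γ hγ τ)
      simp only [per, Complex.add_re, Complex.sub_re, Complex.conj_re, Complex.zero_re] at h1
      simp only [Pi.add_apply, Complex.add_re]
      linarith)
    (fun γ => ⟨(hF1 γ).1.add (hG1 γ).1, fun τ => by
      simp only [Pi.add_apply, (hF1 γ).2 τ, (hG1 γ).2 τ]⟩)
  have e2 : Complex.I • (f - g) = 0 := key hM Γ hn ((hF.sub hG).smul Complex.I)
    (fun γ hγ τ => by
      have h1 := congrArg Complex.im (h0 γ hγ τ)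
      simp only [per, Complex.add_im, Complex.sub_im, Complex.conj_im, Complex.zero_im] at h1
      simp only [Pi.smul_apply, Pi.sub_apply, smul_eq_mul, Complex.mul_re, Complex.I_re,
        Complex.I_im, Complex.sub_im, zero_mul, one_mul]
      linarith)
    (fun γ => ⟨((hF1 γ).1.add (hG1 γ).1.neg).smul Complex.I |>.congr_left fun τ => by
      simp [sub_eq_add_neg], fun τ => by
      simp only [Pi.smul_apply, Pi.sub_apply, (hF1 γ).2 τ, (hG1 γ).2 τ]⟩)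
  have e3 : f = g := sub_eq_zero.1 ((smul_eq_zero.1 e2).resolve_left Complex.I_ne_zero)
  subst e3
  have e4 : f = 0 := by
    rw [← two_smul ℂ f] at e1
    exact (smul_eq_zero.1 e1).resolve_left two_ne_zero
  exact ⟨e4, e4⟩

end Vale.Agent.P027M.ES
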