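import Vale.Agent.P027M.ES.Defs

/-! # P027 route M, block ESC: the maximum principle -/

set_option autoImplicit false

open UpperHalfPlane Function
open scoped MatrixGroups Manifold ModularForm Real

noncomputable section

namespace Vale.Agent.P027M.ES

open Vale.Agent.P022.H218.L3

namespace Maxp

theorem peri {f : ℍ → ℂ} {n : ℕ} (h : ∀ τ, f (ModularGroup.T ^ n • τ) = f τ) :
    Periodic (f ∘ ofComplex) ((n : ℝ) : ℂ) := by
  intro w
  by_cases hw : 0 < w.im
  · have h1 : 0 < (w + ((n : ℝ) : ℂ)).im := by simp [hw]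
    simp only [comp_apply, ofComplex_apply_of_im_pos h1, ofComplex_apply_of_im_pos hw]
    rw [← h ⟨w, hw⟩]
    congr 1
    apply UpperHalfPlane.ext
    have h2 := ModularGroup.coe_T_zpow_smul_eq (⟨w, hw⟩ : ℍ) (n := (n : ℤ))
    rw [zpow_natCast] at h2
    rw [h2]
    simp
  · have hw' : w.im ≤ 0 := not_lt.1 hw
    have h1 : (w + ((n : ℝ) : ℂ)).im ≤ 0 := by simpa using hw'
    simp only [comp_apply, ofComplex_apply_of_im_nonpos h1, ofComplex_apply_of_im_nonpos hw']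

theorem norm_q {n : ℝ} (hn : 0 < n) {τ : ℍ} (h : 1 / 2 ≤ τ.im) :
    Periodic.qParam n τ ∈ Metric.closedBall (0 : ℂ) (Real.exp (-π / n)) := by
  rw [mem_closedBall_zero_iff, Periodic.norm_qParam, Real.exp_le_exp, coe_im]
  refine div_le_div_of_nonneg_right ?_ hn.le
  nlinarith [Real.pi_pos]

end Maxp

open Maxp in
theorem maxp : MAXP := by
  intro Γ _ K n hn hK hΓ hc
  have hn' : (0 : ℝ) < n := by exact_mod_cast hn
  let k : SL(2, ℤ) → ℂ → ℂ := fun s => cuspFunction n fun τ => K (s • τ)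
  have hk : ∀ (s : SL(2, ℤ)) (τ : ℍ), k s (Periodic.qParam n τ) = K (s • τ) := fun s τ =>
    eq_cuspFunction (f := fun τ => K (s • τ)) τ hn'.ne' (peri (f := fun τ => K (s • τ)) (hc s).2)
  have hd : ∀ s, DifferentiableOn ℂ (k s) (Metric.ball 0 1) := fun s =>
    differentiableOn_cuspFunction_ball hn' (peri (f := fun τ => K (s • τ)) (hc s).2)
      (comp_mem s hK) (hc s).1
  have hr : Real.exp (-π / n) < 1 :=
    Real.exp_lt_one_iff.2 (div_neg_of_neg_of_pos (neg_lt_zero.2 Real.pi_pos) hn')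
  have hsub : Metric.closedBall (0 : ℂ) (Real.exp (-π / n)) ⊆ Metric.ball 0 1 :=
    Metric.closedBall_subset_ball hr
  have h0 : (0 : ℂ) ∈ Metric.closedBall (0 : ℂ) (Real.exp (-π / n)) :=
    Metric.mem_closedBall_self (Real.exp_nonneg _)
  have hz : ∀ s, ∃ z ∈ Metric.closedBall (0 : ℂ) (Real.exp (-π / n)),
      IsMaxOn (fun x => ‖k s x‖) (Metric.closedBall (0 : ℂ) (Real.exp (-π / n))) z := fun s =>
    (isCompact_closedBall _ _).exists_isMaxOn ⟨0, h0⟩ ((hd s).continuousOn.mono hsub).norm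
  choose z hz1 hz2 using hz
  obtain ⟨q₀, hq₀⟩ := Finite.exists_max fun q : SL(2, ℤ) ⧸ Γ => ‖k q.out⁻¹ (z q.out⁻¹)‖
  set s := q₀.out⁻¹
  have hM : ∀ τ : ℍ, ‖K τ‖ ≤ ‖k s (z s)‖ := by
    intro τ
    obtain ⟨γ, hγ⟩ := ModularGroup.exists_one_half_le_im_smul τ
    obtain ⟨h, hh⟩ := QuotientGroup.mk_out_eq_mul Γ γ
    refine le_trans ?_ (hq₀ (QuotientGroup.mk γ))
    refine le_trans (le_of_eq ?_) (hz2 _ (norm_q hn' hγ))
    beta_reduce
    rw [hk, hh, mul_inv_rev, mul_smul, inv_smul_smul, hΓ _ (Γ.inv_mem h.2)]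
  have hmax : IsMaxOn (norm ∘ k s) (Metric.ball 0 1) (z s) := by
    intro x hx
    rcases eq_or_ne x 0 with rfl | hx0
    · exact hz2 s h0
    · have h1 := hk s ⟨_, Periodic.im_invQParam_pos_of_norm_lt_one hn'
        (mem_ball_zero_iff.1 hx) hx0⟩
      rw [coe_mk, Periodic.qParam_right_inv hn'.ne' hx0] at h1
      change ‖k s x‖ ≤ ‖k s (z s)‖
      rw [h1]
      exact hM _
  have he := Complex.eqOn_of_isPreconnected_of_isMaxOn_norm (convex_ball 0 1).isPreconnected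
    Metric.isOpen_ball (hd s) (hsub (hz1 s)) hmax
  refine ⟨k s (z s), fun τ => ?_⟩
  have h2 := he (mem_ball_zero_iff.2 (Periodic.norm_qParam_lt_one hn' (s⁻¹ • τ).2))
  have h3 := hk s (s⁻¹ • τ)
  rw [smul_inv_smul] at h3
  exact h3.symm.trans h2

end Vale.Agent.P027M.ES
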