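import Vale.Agent.P027M.ES.Inj
import Vale.Agent.P027M.ES.Maxp
import Vale.Agent.P027M.ES.Cusp

/-! # P027 route M, block ESC: injectivity, closed form -/

namespace Vale.Agent.P027M.ES

theorem inj0 : INJ := inj maxp cusp

end Vale.Agent.P027M.ES
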