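import Vale.Agent.P027M.ES.Prim

/-! # P027 route M, block ESC: the period map is onto -/

set_option autoImplicit false

open UpperHalfPlane Filter Topology
open scoped MatrixGroups Manifold ModularForm Real

noncomputable section

namespace Vale.Agent.P027M.ES

open Vale.Agent.P022.H218.L3 Vale.Agent.P027M.M

theorem Mid.finiteIndex (hG : GRP) {N : ℕ} {Γ : Subgroup SL(2, ℤ)} (h : Mid N Γ) :
    Γ.FiniteIndex :=
  haveI := (hG N h.lv).1
  Subgroup.finiteIndex_of_le h.lo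

theorem per_sum {a b : ℕ} (F : Fin a → ℍ → ℂ) (G : Fin b → ℍ → ℂ) (c : Fin a ⊕ Fin b → ℂ)
    (γ : SL(2, ℤ)) (τ : ℍ) :
    per (∑ i, c (.inl i) • F i) (∑ j, (starRingEnd ℂ) (c (.inr j)) • G j) γ τ =
      ∑ i, c (.inl i) * per (F i) 0 γ τ + ∑ j, c (.inr j) * per 0 (G j) γ τ := by
  simp only [per, Finset.sum_apply, Pi.smul_apply, smul_eq_mul, Pi.zero_apply, sub_self, map_zero,
    add_zero, zero_add, map_sub, map_sum, map_mul, Complex.conj_conj, mul_sub,
    Finset.sum_sub_distrib]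

theorem onto : Spec_ONTO := by
  intro hG hP hI hH hD N Γ hΓ φ hφ
  have := Mid.finiteIndex hG hΓ
  obtain ⟨a, b, f, g, hf, hg, hfi, hgi, hab⟩ := hD N Γ hΓ
  choose F hF using fun i => hP (f i) (hf i).hol
  choose G hG using fun j => hP (g j) (hg j).1.hol
  have z0 : ∀ γ ∈ Γ, (0 : ℍ → ℂ) ∣[(2 : ℤ)] γ = 0 := fun γ _ => SlashAction.zero_slash _ _
  let ψ : Fin a ⊕ Fin b → SL(2, ℤ) → ℂ :=
    Sum.elim (fun i γ => per (F i) 0 γ I) (fun j γ => per 0 (G j) γ I)
  have hψ : ∀ i, AddOn Γ (ψ i) := by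
    rintro (i | j)
    · exact addOn_per (hF i) Prim.zero (hf i).slash z0 I
    · exact addOn_per Prim.zero (hG j) z0 (hg j).1.slash I
  have comb : ∀ c : Fin a ⊕ Fin b → ℂ, ∃ f' g' F' G' : ℍ → ℂ, IsMF Γ 2 f' ∧ IsCF Γ g' ∧
      Prim f' F' ∧ Prim g' G' ∧ (∀ γ ∈ Γ, ∀ τ, ∑ i, c i * ψ i γ = per F' G' γ τ) ∧
      f' = ∑ i, c (.inl i) • f i ∧ g' = ∑ j, (starRingEnd ℂ) (c (.inr j)) • g j := by
    intro c
    have h1 : IsMF Γ 2 (∑ i, c (.inl i) • f i) := isMF_sum _ fun i _ => (hf i).smul _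
    have h2 : IsCF Γ (∑ j, (starRingEnd ℂ) (c (.inr j)) • g j) :=
      IsCF.sum _ fun j _ => IsCF.smul _ (hg j)
    have h3 := Prim.sum Finset.univ fun i _ => (hF i).smul (c (.inl i))
    have h4 := Prim.sum Finset.univ fun j _ => (hG j).smul ((starRingEnd ℂ) (c (.inr j)))
    refine ⟨_, _, _, _, h1, h2, h3, h4, fun γ hγ τ => ?_, rfl, rfl⟩
    rw [per_base h3 h4 (h1.slash γ hγ) (h2.1.slash γ hγ) τ I, per_sum, Fintype.sum_sum_type]
    rfl
  have hind : LinearIndependent ℂ (fun (i : Fin a ⊕ Fin b) (γ : Γ) => ψ i γ) := by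
    rw [Fintype.linearIndependent_iff]
    intro c hc
    obtain ⟨f', g', F', G', h1, h2, h3, h4, h5, h6, h7⟩ := comb c
    obtain ⟨e1, e2⟩ := hI Γ f' g' F' G' h1 h2 h3 h4 fun γ hγ τ => by
      rw [← h5 γ hγ τ]
      have := congrFun hc ⟨γ, hγ⟩
      simpa only [Finset.sum_apply, Pi.smul_apply, smul_eq_mul, Pi.zero_apply] using this
    rintro (i | j)
    · exact Fintype.linearIndependent_iff.1 hfi _ (h6.symm.trans e1) i
    · exact (map_eq_zero (starRingEnd ℂ)).1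
        (Fintype.linearIndependent_iff.1 hgi _ (h7.symm.trans e2) j)
  have hmem : (fun γ : Γ => φ γ) ∈
      Submodule.span ℂ (Set.range fun (i : Fin a ⊕ Fin b) (γ : Γ) => ψ i γ) := by
    by_contra hn
    have h1 := hind.option hn
    have h2 := hH Γ hΓ.hi (hΓ.lo (P022.H231.L3.neg_one_mem _ _)) (Option (Fin a ⊕ Fin b))
      (fun o => Option.casesOn' o φ ψ) (by
        rintro (_ | i)
        · exact hφ
        · exact hψ i) (by
        have e : (fun (o : Option (Fin a ⊕ Fin b)) (γ : Γ) => (Option.casesOn' o φ ψ) γ) =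
            fun o => Option.casesOn' o (fun γ : Γ => φ γ) fun i (γ : Γ) => ψ i γ := by
          funext o
          cases o <;> rfl
        rw [e]
        exact h1)
    simp only [Fintype.card_option, Fintype.card_sum, Fintype.card_fin] at h2
    omega
  obtain ⟨c, hc⟩ := (Submodule.mem_span_range_iff_exists_fun ℂ).1 hmem
  obtain ⟨f', g', F', G', h1, h2, h3, h4, h5, -, -⟩ := comb c
  refine ⟨f', g', F', G', h1, h2, h3, h4, fun γ hγ τ => ?_⟩
  rw [← h5 γ hγ τ]
  have := congrFun hc ⟨γ, hγ⟩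
  simpa only [Finset.sum_apply, Pi.smul_apply, smul_eq_mul] using this.symm

end Vale.Agent.P027M.ES
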