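import Vale.Agent.P027M.ES.Defs
import Vale.Agent.P022.H227.Eich

/-! # P027 route M, block ESC: calculus of primitives -/

set_option autoImplicit false

open UpperHalfPlane Filter Topology
open scoped MatrixGroups Manifold ModularForm Real

noncomputable section

namespace Vale.Agent.P027M.ES

open Vale.Agent.P022.H218.L3 Vale.Agent.P027M.M

theorem tpi_ne : (2 * π * Complex.I : ℂ) ≠ 0 := Complex.two_pi_I_ne_zero

theorem prim : PRIM := by
  intro f hf
  obtain ⟨A, hA⟩ := P022.H227.exists_prim f hf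
  exact ⟨fun τ => 2 * π * Complex.I * A τ, fun τ => (hA τ).const_mul _⟩

section
variable {f g F G : ℍ → ℂ}

theorem Prim.hol (h : Prim f F) : F ∈ Hol :=
  P022.H227.hasDerivAt_iff_mdiff fun τ => (h τ).differentiableAt

theorem Prim.add (h : Prim f F) (h' : Prim g G) : Prim (f + g) (F + G) := fun τ => by
  have := (h τ).add (h' τ)
  rw [← mul_add] at this
  exact this

theorem Prim.sub (h : Prim f F) (h' : Prim g G) : Prim (f - g) (F - G) := fun τ => by
  have := (h τ).sub (h' τ)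
  rw [← mul_sub] at this
  exact this

theorem Prim.smul (c : ℂ) (h : Prim f F) : Prim (c • f) (c • F) := fun τ => by
  have := (h τ).const_mul c
  rw [mul_left_comm] at this
  exact this

theorem Prim.const (c : ℂ) : Prim 0 (fun _ => c) := fun τ => by
  rw [Pi.zero_apply, mul_zero]
  exact hasDerivAt_const (τ : ℂ) c

theorem Prim.zero : Prim 0 0 := Prim.const 0

theorem Prim.sum {ι : Type*} (s : Finset ι) {f F : ι → ℍ → ℂ} (h : ∀ i ∈ s, Prim (f i) (F i)) :
    Prim (∑ i ∈ s, f i) (∑ i ∈ s, F i) := by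
  classical
  induction s using Finset.induction_on with
  | empty => simpa using Prim.zero
  | insert a s ha ih =>
    rw [Finset.sum_insert ha, Finset.sum_insert ha]
    exact (h a (Finset.mem_insert_self a s)).add
      (ih fun i hi => h i (Finset.mem_insert_of_mem hi))

/-- the derivative is determined by the primitive -/
theorem Prim.unique (h : Prim f F) (h' : Prim g F) : f = g :=
  funext fun τ => mul_left_cancel₀ tpi_ne ((h τ).unique (h' τ))

theorem Prim.eq_zero {c : ℂ} (h : Prim f F) (hc : ∀ τ, F τ = c) : f = 0 := by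
  have e : F = fun _ => c := funext hc
  subst e
  exact h.unique (Prim.const c)

theorem Prim.exists_const (h : Prim 0 F) : ∃ c, ∀ τ, F τ = c :=
  P022.H227.eqConst_of_deriv fun τ => by simpa using h τ

/-- two primitives differ by a constant -/
theorem Prim.exists_sub (h : Prim f F) (h' : Prim f G) : ∃ c, ∀ τ, F τ - G τ = c := by
  have := h.sub h'
  rw [sub_self] at this
  exact this.exists_const

/-- pull-back -/
theorem Prim.comp (h : Prim f F) (α : GL (Fin 2) ℝ) (hα : 0 < α.val.det) :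
    Prim (f ∣[(2 : ℤ)] α) (fun τ => F (α • τ)) := fun τ => by
  have hdet : α.det.val = α.val.det := Matrix.GeneralLinearGroup.val_det_apply α
  have hσ : ∀ x, σ α x = x := fun x => by
    rw [σ, if_pos (by rw [hdet]; exact hα)]
    rfl
  have h1 := (hasStrictDerivAt_smul hα τ).hasDerivAt
  have h2 : HasDerivAt (F ∘ ofComplex) (2 * π * Complex.I * f (α • τ))
      ((α • ofComplex (τ : ℂ) : ℍ) : ℂ) := by
    rw [ofComplex_apply]
    exact h _
  have h3 := h2.comp (τ : ℂ) h1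
  have e : (F ∘ ofComplex) ∘ (fun z => ((α • ofComplex z : ℍ) : ℂ)) =
      (fun τ => F (α • τ)) ∘ ofComplex := by
    funext z
    simp only [Function.comp_apply, ofComplex_apply]
  rw [e] at h3
  refine h3.congr_deriv ?_
  rw [ModularForm.slash_apply, hσ, hdet, abs_of_pos hα]
  have hz := denom_ne_zero α τ
  rw [show (2 : ℤ) - 1 = 1 by norm_num, zpow_one, zpow_neg, zpow_ofNat]
  field_simp

theorem Prim.compSL (h : Prim f F) (γ : SL(2, ℤ)) :
    Prim (f ∣[(2 : ℤ)] γ) (fun τ => F (γ • τ)) :=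
  h.comp (γ : GL (Fin 2) ℝ) (by
    rw [← Matrix.GeneralLinearGroup.val_det_apply]
    simp)

/-- the period does not depend on the base point -/
theorem Prim.period (h : Prim f F) {γ : SL(2, ℤ)} (hγ : f ∣[(2 : ℤ)] γ = f) (τ τ' : ℍ) :
    F (γ • τ) - F τ = F (γ • τ') - F τ' := by
  have h1 := h.compSL γ
  rw [hγ] at h1
  obtain ⟨c, hc⟩ := h1.exists_sub h
  rw [hc τ, hc τ']

theorem per_base (h : Prim f F) (h' : Prim g G) {γ : SL(2, ℤ)} (hγ : f ∣[(2 : ℤ)] γ = f)
    (hγ' : g ∣[(2 : ℤ)] γ = g) (τ τ' : ℍ) : per F G γ τ = per F G γ τ' := by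
  rw [per, per, h.period hγ τ τ', h'.period hγ' τ τ']

theorem addOn_per {Γ : Subgroup SL(2, ℤ)} (h : Prim f F) (h' : Prim g G)
    (hf : ∀ γ ∈ Γ, f ∣[(2 : ℤ)] γ = f) (hg : ∀ γ ∈ Γ, g ∣[(2 : ℤ)] γ = g) (τ : ℍ) :
    AddOn Γ fun γ => per F G γ τ := by
  intro γ hγ δ _
  show per F G (γ * δ) τ = per F G γ τ + per F G δ τ
  rw [per_base h h' (hf γ hγ) (hg γ hγ) τ (δ • τ), per, per, per, mul_smul]
  simp only [map_sub]
  ring

end

section
variable {Γ : Subgroup SL(2, ℤ)} {f g : ℍ → ℂ}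

theorem IsCF.zero : IsCF Γ 0 :=
  ⟨IsMF.zero, fun γ => by
    rw [SlashAction.zero_slash]
    exact Filter.zero_zeroAtFilter _⟩

theorem IsCF.add (hf : IsCF Γ f) (hg : IsCF Γ g) : IsCF Γ (f + g) :=
  ⟨hf.1.add hg.1, fun γ => by
    rw [SlashAction.add_slash]
    exact (hf.2 γ).add (hg.2 γ)⟩

theorem IsCF.smul (c : ℂ) (hf : IsCF Γ f) : IsCF Γ (c • f) :=
  ⟨hf.1.smul c, fun γ => by
    rw [ModularForm.SL_smul_slash]
    exact (hf.2 γ).smul c⟩

theorem IsCF.neg (hf : IsCF Γ f) : IsCF Γ (-f) := by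
  have := hf.smul (-1)
  rwa [neg_one_smul] at this

theorem IsCF.sub (hf : IsCF Γ f) (hg : IsCF Γ g) : IsCF Γ (f - g) := by
  rw [sub_eq_add_neg]
  exact hf.add hg.neg

theorem IsCF.sum {ι : Type*} (s : Finset ι) {f : ι → ℍ → ℂ} (h : ∀ i ∈ s, IsCF Γ (f i)) :
    IsCF Γ (∑ i ∈ s, f i) :=
  Finset.sum_induction f (IsCF Γ) (fun _ _ => IsCF.add) IsCF.zero h

theorem isMF_sum {ι : Type*} {k : ℤ} (s : Finset ι) {f : ι → ℍ → ℂ}
    (h : ∀ i ∈ s, IsMF Γ k (f i)) : IsMF Γ k (∑ i ∈ s, f i) :=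
  Finset.sum_induction f (IsMF Γ k) (fun _ _ => IsMF.add) IsMF.zero h

theorem IsCF.mono {Γ' : Subgroup SL(2, ℤ)} (h : Γ' ≤ Γ) (hf : IsCF Γ f) : IsCF Γ' f :=
  ⟨hf.1.mono h, hf.2⟩

end

end Vale.Agent.P027M.ES
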