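import Vale.Agent.P027M.ES.Onto
import Vale.Agent.P027M.ES.Inj0
import Vale.Agent.P027M.Fo.Defs

/-! # P027 route M, block ESC: assembly, and the form used by block FORM -/

namespace Vale.Agent.P027M.ES

open Vale.Agent.P027M.M

theorem esc_of (hG : GRP) (hH : HOMD) (hD : DIMS) : ESC := ⟨onto hG prim inj0 hH hD, inj0⟩

theorem escf_of (hG : GRP) (h : ESC) : Fo.ESCf := by
  intro N H hN hH
  have hM : Mid N (GH N H) := ((hG N hN).2.2.2.2.2.2.2 H).2.1 hH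
  have := Mid.finiteIndex hG hM
  refine ⟨fun φ hφ => ?_, fun f g F G h1 h2 h3 h4 h5 h6 => h.2 _ f g F G h1 ⟨h2, h3⟩ h4 h5 h6⟩
  obtain ⟨f, g, F, G, h1, h2, h3, h4, h5⟩ := h.1 N _ hM φ hφ
  exact ⟨f, g, F, G, h1, h2.1, h2.2, h3, h4, h5⟩

end Vale.Agent.P027M.ES
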